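import Vale.Agent.Lib.P130B.G.Defs

/-! P130B glue: from the interval to the circle. -/

namespace Vale.Agent.P130B

open MeasureTheory Filter Topology Vale.Agent.P110F Vale.Agent.P130H
open scoped ComplexConjugate

private lemma Cir_fourier (n : ℤ) (x : ℝ) : fourier n (x : Ci) = e1 (n * x) := by
  rw [fourier_coe_apply]
  unfold e1
  congr 1
  push_cast
  ring

/-- `‖p_k‖²` of `P130H` at a point of the circle -/
theorem norm_p_coe (R : RO) (k : ℕ) (x : ℝ) : ‖R.p k (x : Ci)‖ ^ 2 = PZ (R.m k) (R.pos k) x := by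
  have h1 : R.p k (x : Ci) = ((Real.sqrt (R.m k))⁻¹ : ℂ) *
      ∑ j ∈ Finset.range (R.m k), e1 ((R.pos k j : ℝ) * x) := by
    unfold RO.p
    rw [ContinuousMap.smul_apply, ContinuousMap.sum_apply, smul_eq_mul]
    congr 1
    refine Finset.sum_congr rfl fun j _ => ?_
    rw [Cir_fourier, Int.cast_natCast]
  unfold PZ
  rw [h1, norm_mul, mul_pow, norm_inv, Complex.norm_real, Real.norm_eq_abs,
    abs_of_nonneg (Real.sqrt_nonneg _), inv_pow, Real.sq_sqrt (Nat.cast_nonneg _)]
  ring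

theorem rho_coe (R : RO) (k₀ k : ℕ) (x : ℝ) : R.rho k₀ k (x : Ci) = RZ R.m R.pos k₀ k x := by
  unfold RO.rho RZ
  exact Finset.prod_congr rfl fun i _ => norm_p_coe R i x

private lemma Cir_meas (t : ℝ) : MeasurableSet (Th t) := by
  have h : IsCompact (Th t) := isCompact_Icc.image (AddCircle.continuous_mk' (1 : ℝ))
  exact h.isClosed.measurableSet

private lemma Cir_mem {t : ℝ} (ht : 0 < t) {a : ℝ} (ha : a ∈ Set.Ioc (0 : ℝ) (0 + 1)) :
    (a : Ci) ∈ Th t ↔ a ∈ Set.Icc t (1 - t) := by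
  constructor
  · rintro ⟨s, hs, he⟩
    have h1 : s - a ∈ AddSubgroup.zmultiples (1 : ℝ) := QuotientAddGroup.eq_iff_sub_mem.1 he
    obtain ⟨n, hn⟩ := AddSubgroup.mem_zmultiples_iff.1 h1
    rw [zsmul_eq_mul, mul_one] at hn
    obtain ⟨ha0, ha1⟩ := ha
    rw [zero_add] at ha1
    have h2 : (n : ℝ) < 1 := by
      rw [hn]
      linarith [hs.2]
    have h3 : (-1 : ℝ) < n := by
      rw [hn]
      linarith [hs.1]
    have h4 : n < 1 := by exact_mod_cast h2
    have h5 : -1 < n := by exact_mod_cast h3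
    have h6 : n = 0 := by omega
    rw [h6, Int.cast_zero] at hn
    have h7 : a = s := by linarith
    rw [h7]
    exact hs
  · intro h
    exact ⟨a, h, rfl⟩

/-- integrals over `Th t` -/
theorem integral_Th {t : ℝ} (ht : 0 < t) (ht' : t < 1 / 2) (f : Ci → ℝ) :
    ∫ x in Th t, f x ∂haar = ∫ x in t..(1 - t), f (x : Ci) := by
  have hvol : (volume : Measure Ci) = haar := by
    rw [AddCircle.volume_eq_smul_haarAddCircle, ENNReal.ofReal_one, one_smul]
  rw [← integral_indicator (Cir_meas t), ← hvol, ← AddCircle.integral_preimage 1 0,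
    intervalIntegral.integral_of_le (by linarith)]
  have h1 : ∫ a in Set.Ioc (0 : ℝ) (0 + 1), (Th t).indicator f (a : Ci) =
      ∫ a in Set.Ioc (0 : ℝ) (0 + 1), (Set.Icc t (1 - t)).indicator (fun a : ℝ => f (a : Ci)) a := by
    refine setIntegral_congr_fun measurableSet_Ioc fun a ha => ?_
    by_cases h : a ∈ Set.Icc t (1 - t)
    · rw [Set.indicator_of_mem ((Cir_mem ht ha).2 h), Set.indicator_of_mem h]
    · rw [Set.indicator_of_notMem (fun h' => h ((Cir_mem ht ha).1 h')),
        Set.indicator_of_notMem h]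
  rw [h1, setIntegral_indicator measurableSet_Icc]
  refine Eq.trans ?_ integral_Icc_eq_integral_Ioc
  congr 2
  ext a
  simp only [Set.mem_inter_iff, Set.mem_Ioc, Set.mem_Icc]
  constructor
  · exact fun h => h.2
  · intro h
    refine ⟨⟨by linarith [h.1], by linarith [h.2]⟩, h⟩

end Vale.Agent.P130B
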