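import Mathlib
import Vale.Agent.Lib.P110F.Defs
import Vale.Agent.Lib.P130B.F.Defs
import Vale.Agent.Lib.P130H.Defs

/-!
P130B glue: from `flat01` to the rank one data.
-/

namespace Vale.Agent.P130B

open MeasureTheory Filter Topology Vale.Agent.P110F
open scoped ComplexConjugate

/-- The statement of `flat01`. -/
def Flat01 : Prop := ∀ ε η : ℝ, 0 < ε → 0 < η →
    ∃ M : ℕ, ∀ m₀ : ℕ, ∃ m : ℕ, m₀ ≤ m ∧ 0 < m ∧ ∀ (d h : ℕ) (Q : ℝ → ℝ),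
      d + 2 * M + 2 ≤ h → TrigW d Q → ∃ s : ℕ → ℕ, (∀ j, s j ≤ M) ∧
        ∫ x in η..(1 - η), Q x * |‖∑ j ∈ Finset.range m,
          e1 (((j * h + s j : ℕ) : ℝ) * x)‖ ^ 2 / m - 1| ≤ ε

/-- the exponential sum with exponents `p j`, `j < m`, normalized, squared -/
noncomputable def PZ (m : ℕ) (p : ℕ → ℕ) (x : ℝ) : ℝ :=
  ‖∑ j ∈ Finset.range m, e1 ((p j : ℝ) * x)‖ ^ 2 / m

/-- products of stages -/
noncomputable def RZ (m : ℕ → ℕ) (p : ℕ → ℕ → ℕ) (k₀ k : ℕ) (x : ℝ) : ℝ :=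
  ∏ i ∈ Finset.Ico k₀ k, PZ (m i) (p i) x

/-- the weight of stage `k` -/
noncomputable def QZ (m : ℕ → ℕ) (p : ℕ → ℕ → ℕ) (k : ℕ) (x : ℝ) : ℝ :=
  (∑ k₀ ∈ Finset.range (k + 1), RZ m p k₀ k x) / (k + 1)

/-- numerical parameters: `m`, heights `h`, spacings `H`, bounds `M` of the spacers -/
structure PR where
  m : ℕ → ℕ
  h : ℕ → ℕ
  M : ℕ → ℕ
  two_le : ∀ k, 2 ≤ m k
  h0 : h 0 = 1
  hs : ∀ k, h (k + 1) = m k * (h k + 2 * M k + 2)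
  C : ℕ
  bdd : ∀ k, h k ≤ C * ∏ i ∈ Finset.range k, m i
  flat : ∀ k (Q : ℝ → ℝ), TrigW (h k) Q → ∃ s : ℕ → ℕ, (∀ j, s j ≤ M k) ∧
    ∫ x in (1 / ((k : ℝ) + 3))..(1 - 1 / ((k : ℝ) + 3)), Q x *
      |PZ (m k) (fun j => j * (h k + 2 * M k + 2) + s j) x - 1| ≤ 1 / ((k + 1) * 4 ^ k)

/-- positions of the copies, normalized by `pos 0 = 0` -/
def PR.ps (R : PR) (s : ℕ → ℕ → ℕ) (k j : ℕ) : ℕ :=
  j * (R.h k + 2 * R.M k + 2) + s k j - s k 0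

end Vale.Agent.P130B
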