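import Vale.Agent.Lib.P130B.G.Main
import Vale.Agent.Lib.P130B.F.U

/-! P130B glue: the theorem without hypotheses. -/

namespace Vale.Agent.P130B

/-- **Banach's problem.** -/
theorem mainStmt : _root_.P130B.MainStmt :=
  mainStmt_of_flat01 fun _ _ hε hη => flat01 hε hη

end Vale.Agent.P130B
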