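import Vale.Agent.Lib.P130B.G.RO
import Vale.Agent.Lib.P130B.T.Dense
import Vale.Agent.Lib.P130H.B.Fin
import Vale.Agent.Lib.P130B.Out.FromBasis

/-! P130B glue: the final assembly. -/

namespace Vale.Agent.P130B

open MeasureTheory Filter Topology
open scoped ComplexConjugate ENNReal

section koop

variable {Y : Type} [MeasurableSpace Y] {μ : Measure Y} {T : Y ≃ᵐ Y}

/-- the Koopman operator as a unitary operator -/
theorem exists_koopman_equiv (hT : MeasurePreserving T μ μ) :
    ∃ U : Lp ℂ 2 μ ≃ₗᵢ[ℂ] Lp ℂ 2 μ, ∀ f, U f = Lp.compMeasurePreserving T hT f := by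
  have hT' : MeasurePreserving T.symm μ μ := hT.symm T
  have hs : Function.Surjective (Lp.compMeasurePreservingₗᵢ ℂ T hT : Lp ℂ 2 μ →ₗᵢ[ℂ] Lp ℂ 2 μ) := by
    intro f
    refine ⟨Lp.compMeasurePreserving T.symm hT' f, ?_⟩
    apply Lp.ext
    have h1 := Lp.coeFn_compMeasurePreserving (Lp.compMeasurePreserving T.symm hT' f) hT
    have h2 := hT.quasiMeasurePreserving.ae_eq_comp (Lp.coeFn_compMeasurePreserving f hT')
    refine h1.trans (h2.trans ?_)
    refine Eventually.of_forall fun y => ?_
    simp
  exact ⟨LinearIsometryEquiv.ofSurjective _ hs, fun f => rfl⟩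

end koop

theorem mainStmt_of_flat01 (h : Flat01) : _root_.P130B.MainStmt := by
  obtain ⟨R, h0, hF, C, hC⟩ := exists_RO h
  let K : _root_.P130B.RK :=
    { m := R.m, hm := R.two_le, h := R.h, p := R.pos, h0 := h0, p0 := R.pos_zero,
      hp := R.step, hlast := fun n => (R.last n).le, C := C, hC := hC }
  obtain ⟨Y, mY, sY, μ, pμ, nμ, T, hT, e, c, h1, h2, h3, h4, h5, h6, h7⟩ :=
    _root_.P130B.exists_rank_one K
  obtain ⟨U, hU⟩ := exists_koopman_equiv hT
  have hpos : ∀ n, 0 < R.h n := by
    intro n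
    cases n with
    | zero => exact R.h_pos
    | succ n => exact lt_of_le_of_lt (Nat.zero_le _) (R.last n)
  have hit : ∀ n k, k < R.h n → U^[k] (e n 0) = e n k := by
    intro n k
    induction k with
    | zero => intro _; rfl
    | succ k ih =>
      intro hk
      rw [Function.iterate_succ_apply', ih (by omega), hU]
      exact h2 n k hk
  have hposlt : ∀ n j, j < R.m n → R.pos n j < R.h (n + 1) := by
    intro n
    have hmono : ∀ i j, i ≤ j → j < R.m n → R.pos n i ≤ R.pos n j := by
      intro i j hij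
      induction hij with
      | refl => intro _; exact le_rfl
      | step hij ih =>
        intro hj
        have h10 := R.step n _ hj
        have h11 := ih (Nat.lt_of_succ_lt hj)
        exact h11.trans ((Nat.le_add_right _ _).trans h10)
    intro j hj
    have h8 := hmono j (R.m n - 1) (by omega) (by omega)
    have h9 := R.last n
    omega
  have S : Vale.Agent.P130H.Sys R U (fun n => e n 0) := by
    refine ⟨fun k => ?_, fun k => ?_, ?_⟩
    · rw [orthonormal_iff_ite]
      intro i j
      rw [hit k i i.2, hit k j j.2, h1 k i j i.2 j.2]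
      simp only [Fin.ext_iff]
    · rw [h3 k 0 (hpos k)]
      congr 1
      refine Finset.sum_congr rfl fun j hj => ?_
      rw [Finset.mem_range] at hj
      rw [hit (k + 1) _ (hposlt k j hj)]
      rfl
    · rw [eq_top_iff, ← h4]
      apply Submodule.topologicalClosure_mono
      rw [Submodule.span_le]
      rintro f ⟨n, k, hk, rfl⟩
      apply Submodule.mem_iSup_of_mem n
      apply Submodule.subset_span
      exact ⟨⟨k, hk⟩, hit n k hk⟩
  let one : Lp ℂ 2 μ := (memLp_const (1 : ℂ)).toLp (fun _ : Y => (1 : ℂ))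
  have hone : (one : Y → ℂ) =ᵐ[μ] fun _ => (1 : ℂ) := MemLp.coeFn_toLp _
  have hU1 : U one = one := by
    rw [hU]
    apply Lp.ext
    refine (Lp.coeFn_compMeasurePreserving one hT).trans ?_
    have h8 := hT.quasiMeasurePreserving.ae_eq_comp hone
    exact h8.trans (EventuallyEq.trans (Eventually.of_forall fun _ => rfl) hone.symm)
  have hne : one ≠ 0 := by
    intro h8
    have h9 : (fun _ : Y => (1 : ℂ)) =ᵐ[μ] (0 : Y → ℂ) := by
      rw [h8] at hone
      exact hone.symm.trans (Lp.coeFn_zero ℂ 2 μ)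
    have h10 : ∀ᵐ y ∂μ, False := by
      filter_upwards [h9] with y hy
      simp at hy
    rw [ae_iff] at h10
    simp at h10
  obtain ⟨g, hg1, hg2, hg3⟩ := Vale.Agent.P130H.exists_basis hF S one hU1 hne
  exact _root_.P130B.mainStmt_of_orbit ⟨Y, mY, sY, μ, pμ, nμ, T, hT, U, one, g, hU, hone, hg1,
    hg2, hg3⟩

end Vale.Agent.P130B
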