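import Vale.Agent.Lib.P130B.G.Defs

/-! P130B glue: the numerical parameters. -/

namespace Vale.Agent.P130B

open MeasureTheory Filter Topology Vale.Agent.P110F
open scoped ComplexConjugate

/-- heights -/
private def Par_h (m M : ℕ → ℕ) : ℕ → ℕ
  | 0 => 1
  | k + 1 => m k * (Par_h m M k + 2 * M k + 2)

private theorem Par_bdd (m M : ℕ → ℕ) (hm : ∀ k, 2 ^ (k + 1) * (2 * M (k + 1) + 2) + 2 ≤ m k)
    (k : ℕ) : 2 ^ (k + 1) * Par_h m M (k + 1) + 2 * ∏ i ∈ Finset.range (k + 1), m i ≤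
      (2 * M 0 + 5) * 2 ^ (k + 1) * ∏ i ∈ Finset.range (k + 1), m i := by
  have hpos : ∀ n, 1 ≤ ∏ i ∈ Finset.range n, m i := fun n =>
    Nat.one_le_iff_ne_zero.2 (Finset.prod_ne_zero_iff.2 fun i _ => by have := hm i; omega)
  induction k with
  | zero =>
    rw [Finset.prod_range_one]
    have h1 : Par_h m M (0 + 1) = m 0 * (1 + 2 * M 0 + 2) := rfl
    rw [h1]
    calc 2 ^ (0 + 1) * (m 0 * (1 + 2 * M 0 + 2)) + 2 * m 0 = m 0 * (4 * M 0 + 8) := by ring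
      _ ≤ m 0 * (4 * M 0 + 10) := Nat.mul_le_mul_left _ (by omega)
      _ = (2 * M 0 + 5) * 2 ^ (0 + 1) * m 0 := by ring
  | succ k ih =>
    have h1 : Par_h m M (k + 1 + 1) = m (k + 1) * (Par_h m M (k + 1) + 2 * M (k + 1) + 2) := rfl
    rw [Finset.prod_range_succ, h1]
    set P := ∏ i ∈ Finset.range (k + 1), m i with hP
    have h2 : 2 ^ (k + 1) * (2 * M (k + 1) + 2) ≤ P := by
      rw [hP, Finset.prod_range_succ]
      calc 2 ^ (k + 1) * (2 * M (k + 1) + 2) ≤ m k := by have := hm k; omega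
        _ = 1 * m k := (one_mul _).symm
        _ ≤ _ := Nat.mul_le_mul_right _ (hpos k)
    have h3 : 2 ^ (k + 1 + 1) * (Par_h m M (k + 1) + 2 * M (k + 1) + 2) + 2 * P ≤
        (2 * M 0 + 5) * 2 ^ (k + 1 + 1) * P := by
      have e1 : 2 ^ (k + 1 + 1) * (Par_h m M (k + 1) + 2 * M (k + 1) + 2) + 2 * P =
          2 * (2 ^ (k + 1) * Par_h m M (k + 1)) + 2 * (2 ^ (k + 1) * (2 * M (k + 1) + 2)) +
            2 * P := by ring
      have e2 : (2 * M 0 + 5) * 2 ^ (k + 1 + 1) * P = 2 * ((2 * M 0 + 5) * 2 ^ (k + 1) * P) := by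
        ring
      rw [e1, e2]
      omega
    calc 2 ^ (k + 1 + 1) * (m (k + 1) * (Par_h m M (k + 1) + 2 * M (k + 1) + 2)) +
          2 * (P * m (k + 1))
        = m (k + 1) * (2 ^ (k + 1 + 1) * (Par_h m M (k + 1) + 2 * M (k + 1) + 2) + 2 * P) := by
          ring
      _ ≤ m (k + 1) * ((2 * M 0 + 5) * 2 ^ (k + 1 + 1) * P) := Nat.mul_le_mul_left _ h3
      _ = (2 * M 0 + 5) * 2 ^ (k + 1 + 1) * (P * m (k + 1)) := by ring

/-- `M k` from `Flat01` with `ε = 1 / ((k+1) 4^k)`, `η = 1/(k+3)`; `m k ≥ 2^(k+1) (2 M (k+1) + 2) + 2`;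
`h k / ∏ m` increases by `(2 M k + 2)/∏_{i<k} m i ≤ 2^-k` for `k ≥ 1` -/
theorem exists_PR (h : Flat01) : Nonempty PR := by
  have h1 : ∀ k : ℕ, ∃ M : ℕ, ∀ m₀ : ℕ, ∃ m : ℕ, m₀ ≤ m ∧ 0 < m ∧ ∀ (d h : ℕ) (Q : ℝ → ℝ),
      d + 2 * M + 2 ≤ h → TrigW d Q → ∃ s : ℕ → ℕ, (∀ j, s j ≤ M) ∧
        ∫ x in (1 / ((k : ℝ) + 3))..(1 - 1 / ((k : ℝ) + 3)), Q x * |‖∑ j ∈ Finset.range m,
          e1 (((j * h + s j : ℕ) : ℝ) * x)‖ ^ 2 / m - 1| ≤ 1 / ((k + 1) * 4 ^ k) := fun k =>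
    h _ _ (by positivity) (by positivity)
  choose M hM using h1
  choose m hm1 hm2 hm3 using fun k => hM k (2 ^ (k + 1) * (2 * M (k + 1) + 2) + 2)
  refine ⟨⟨m, Par_h m M, M, fun k => ?_, rfl, fun k => rfl, 2 * M 0 + 5, fun k => ?_,
    fun k Q hQ => ?_⟩⟩
  · have := hm1 k
    omega
  · cases k with
    | zero =>
      rw [Finset.range_zero, Finset.prod_empty, mul_one]
      change 1 ≤ 2 * M 0 + 5
      omega
    | succ k =>
      have h2 := Par_bdd m M hm1 k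
      have h3 : 2 ^ (k + 1) * Par_h m M (k + 1) ≤
          2 ^ (k + 1) * ((2 * M 0 + 5) * ∏ i ∈ Finset.range (k + 1), m i) := by
        calc 2 ^ (k + 1) * Par_h m M (k + 1) ≤
              (2 * M 0 + 5) * 2 ^ (k + 1) * ∏ i ∈ Finset.range (k + 1), m i := by omega
          _ = _ := by ring
      exact Nat.le_of_mul_le_mul_left h3 (by positivity)
  · obtain ⟨s, hs1, hs2⟩ := hm3 k (Par_h m M k) (Par_h m M k + 2 * M k + 2) Q le_rfl hQ
    exact ⟨s, hs1, hs2⟩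

end Vale.Agent.P130B
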