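import Vale.Agent.Lib.P130B.G.RhoA

/-! P130B glue: degree and integral of the products. -/

namespace Vale.Agent.P130B

open MeasureTheory Filter Topology Vale.Agent.P110F
open scoped ComplexConjugate

private lemma RZ_self (m : ℕ → ℕ) (p : ℕ → ℕ → ℕ) (k : ℕ) :
    RZ m p k k = fun _ => (1 : ℝ) := by
  funext x
  simp [RZ]

private lemma RZ_succ (m : ℕ → ℕ) (p : ℕ → ℕ → ℕ) {k₀ k : ℕ} (h : k₀ ≤ k) :
    RZ m p k₀ (k + 1) = fun x => RZ m p k₀ k x * PZ (m k) (p k) x := by
  funext x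
  simp only [RZ]
  rw [Finset.prod_Ico_succ_top h]

private lemma isTrig_sum {d : ℕ} {ι : Type} (S : Finset ι) (f : ι → ℝ → ℝ)
    (h : ∀ i ∈ S, IsTrig d (f i)) : IsTrig d (fun x => ∑ i ∈ S, f i x) := by
  classical
  induction S using Finset.induction_on with
  | empty => simpa using isTrig_const d 0
  | insert a S ha ih =>
    have h1 := (h a (Finset.mem_insert_self _ _)).add
      (ih fun i hi => h i (Finset.mem_insert_of_mem hi))
    simpa [Finset.sum_insert ha] using h1

/-- degree and integral of the products; only `s i`, `i < k`, matter -/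
theorem PR.RZ_trig (R : PR) (s : ℕ → ℕ → ℕ) (k₀ k : ℕ) (hk : k₀ ≤ k)
    (hs : ∀ i < k, ∀ j, s i j ≤ R.M i) :
    IsTrig (R.h k) (RZ R.m (R.ps s) k₀ k) ∧ ∫ x in (0 : ℝ)..1, RZ R.m (R.ps s) k₀ k x = 1 := by
  induction k, hk using Nat.le_induction with
  | base =>
    rw [RZ_self]
    exact ⟨isTrig_const _ _, by simp⟩
  | succ k hk ih =>
    obtain ⟨h1, h2⟩ := ih (fun i hi j => hs i (by omega) j)
    have hm : 0 < R.m k := by
      have := R.two_le k
      omega
    have hsk : ∀ j, s k j ≤ R.M k := hs k (by omega)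
    rw [RZ_succ _ _ hk]
    constructor
    · have h3 : IsTrig (R.ps s k (R.m k - 1)) (PZ (R.m k) (R.ps s k)) := by
        apply isTrig_PZ
        intro j hj
        by_cases hjm : j = R.m k - 1
        · rw [hjm]
        · have := R.ps_step s k hsk j (R.m k - 1) (by omega)
          omega
      have h4 := h1.mul h3
      apply h4.mono
      have := R.ps_last s k hsk (R.m k - 1) (by omega)
      omega
    · rw [integral_mul_PZ hm (fun i j hij _ => R.ps_step s k hsk i j hij) h1]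
      exact h2

theorem PR.QZ_trigW (R : PR) (s : ℕ → ℕ → ℕ) (k : ℕ) (hs : ∀ i < k, ∀ j, s i j ≤ R.M i) :
    TrigW (R.h k) (QZ R.m (R.ps s) k) := by
  have hle : ∀ k₀ ∈ Finset.range (k + 1), k₀ ≤ k := fun k₀ hk₀ => by
    have := Finset.mem_range.1 hk₀
    omega
  have hT : ∀ k₀ ∈ Finset.range (k + 1), IsTrig (R.h k) (RZ R.m (R.ps s) k₀ k) :=
    fun k₀ hk₀ => (R.RZ_trig s k₀ k (hle k₀ hk₀) hs).1
  have hI : ∀ k₀ ∈ Finset.range (k + 1), ∫ x in (0 : ℝ)..1, RZ R.m (R.ps s) k₀ k x = 1 :=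
    fun k₀ hk₀ => (R.RZ_trig s k₀ k (hle k₀ hk₀) hs).2
  have hQ : QZ R.m (R.ps s) k = fun x => (1 / ((k : ℝ) + 1)) *
      ∑ k₀ ∈ Finset.range (k + 1), RZ R.m (R.ps s) k₀ k x := by
    funext x
    simp only [QZ]
    ring
  refine ⟨?_, ?_, ?_⟩
  · rw [hQ]
    exact (isTrig_sum _ _ hT).smul _
  · intro x
    simp only [QZ]
    exact div_nonneg (Finset.sum_nonneg fun i _ => RZ_nonneg _ _ _ _ _) (by positivity)
  · rw [hQ, intervalIntegral.integral_const_mul, intervalIntegral.integral_finsetSum]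
    · rw [Finset.sum_congr rfl hI]
      have : (k : ℝ) + 1 ≠ 0 := by positivity
      simp
      field_simp
    · intro i _
      exact (continuous_RZ _ _ _ _).intervalIntegrable _ _

end Vale.Agent.P130B
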