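import Mathlib

/-!
P130B G/SeqA: dependent choice with memory.
-/

namespace Vale.Agent.P130B

private noncomputable def sqF {α : Type} [Inhabited α] (c : ℕ → (ℕ → α) → α) : ℕ → ℕ → α
  | 0 => fun _ => default
  | k + 1 => Function.update (sqF c k) k (c k (sqF c k))

private theorem sqF_eq {α : Type} [Inhabited α] (c : ℕ → (ℕ → α) → α) (i : ℕ) :
    ∀ k, i < k → sqF c k i = sqF c (i + 1) i := by
  intro k hk
  induction k with
  | zero => exact absurd hk (Nat.not_lt_zero i)
  | succ k ih =>
    rcases Nat.lt_succ_iff_lt_or_eq.1 hk with h | h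
    · rw [← ih h]
      show Function.update (sqF c k) k (c k (sqF c k)) i = sqF c k i
      rw [Function.update_of_ne h.ne]
    · rw [h]

/-- dependent choice with memory -/
theorem strong_choice {α : Type} [Inhabited α] (G : ℕ → (ℕ → α) → α → Prop)
    (hG : ∀ k (f f' : ℕ → α) (w : α), (∀ i < k, f i = f' i) → G k f w → G k f' w)
    (h : ∀ k (f : ℕ → α), (∀ i < k, G i f (f i)) → ∃ w, G k f w) :
    ∃ s : ℕ → α, ∀ k, G k s (s k) := by
  classical
  let c : ℕ → (ℕ → α) → α := fun k f => if hh : ∃ w, G k f w then hh.choose else default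
  refine ⟨fun k => sqF c (k + 1) k, fun k => ?_⟩
  induction k using Nat.strong_induction_on with
  | _ k ih =>
    have h1 : ∀ i < k, G i (sqF c k) (sqF c k i) := by
      intro i hi
      have h2 := ih i hi
      rw [sqF_eq c i k hi]
      refine hG i _ _ _ (fun j hj => ?_) h2
      exact (sqF_eq c j k (hj.trans hi)).symm
    have h3 : ∃ w, G k (sqF c k) w := h k (sqF c k) h1
    have h4 : G k (sqF c k) (c k (sqF c k)) := by
      show G k (sqF c k) (if hh : ∃ w, G k (sqF c k) w then hh.choose else default)
      rw [dif_pos h3]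
      exact h3.choose_spec
    have h5 : sqF c (k + 1) k = c k (sqF c k) := by
      show Function.update (sqF c k) k (c k (sqF c k)) k = _
      rw [Function.update_self]
    show G k (fun k => sqF c (k + 1) k) (sqF c (k + 1) k)
    rw [h5]
    refine hG k _ _ _ (fun j hj => ?_) h4
    exact sqF_eq c j k hj

end Vale.Agent.P130B
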