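import Vale.Agent.Lib.P130B.G.RhoA
import Vale.Agent.Lib.P130B.G.RhoB
import Vale.Agent.Lib.P130B.G.SeqA

/-! P130B glue: recursive choice of the spacers, the bounds. -/

namespace Vale.Agent.P130B

open MeasureTheory Filter Topology Vale.Agent.P110F
open scoped ComplexConjugate

private theorem SeqB_ps (R : PR) {f f' : ℕ → ℕ → ℕ} {i : ℕ} (h : f i = f' i) :
    R.ps f i = R.ps f' i := by
  funext j
  unfold PR.ps
  rw [h]

private theorem SeqB_RZ (R : PR) {f f' : ℕ → ℕ → ℕ} (k₀ k : ℕ) (h : ∀ i < k, f i = f' i) :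
    RZ R.m (R.ps f) k₀ k = RZ R.m (R.ps f') k₀ k := by
  funext x
  unfold RZ
  refine Finset.prod_congr rfl fun i hi => ?_
  rw [SeqB_ps R (h i (Finset.mem_Ico.1 hi).2)]

private theorem SeqB_QZ (R : PR) {f f' : ℕ → ℕ → ℕ} (k : ℕ) (h : ∀ i < k, f i = f' i) :
    QZ R.m (R.ps f) k = QZ R.m (R.ps f') k := by
  funext x
  unfold QZ
  congr 1
  exact Finset.sum_congr rfl fun k₀ _ => by rw [SeqB_RZ R k₀ k h]

theorem PR.exists_s (R : PR) : ∃ s : ℕ → ℕ → ℕ, (∀ k j, s k j ≤ R.M k) ∧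
    ∀ k, ∫ x in (1 / ((k : ℝ) + 3))..(1 - 1 / ((k : ℝ) + 3)), QZ R.m (R.ps s) k x *
      |PZ (R.m k) (R.ps s k) x - 1| ≤ 1 / ((k + 1) * 4 ^ k) := by
  obtain ⟨s, hs⟩ := strong_choice (α := ℕ → ℕ)
    (fun k f w => (∀ j, w j ≤ R.M k) ∧
      ∫ x in (1 / ((k : ℝ) + 3))..(1 - 1 / ((k : ℝ) + 3)), QZ R.m (R.ps f) k x *
        |PZ (R.m k) (fun j => j * (R.h k + 2 * R.M k + 2) + w j) x - 1| ≤
          1 / ((k + 1) * 4 ^ k))
    (by
      intro k f f' w hf hG
      refine ⟨hG.1, ?_⟩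
      rw [← SeqB_QZ R k hf]
      exact hG.2)
    (by
      intro k f hf
      exact R.flat k _ (R.QZ_trigW f k fun i hi => (hf i hi).1))
  refine ⟨s, fun k => (hs k).1, fun k => ?_⟩
  have h1 := (hs k).2
  have h2 : PZ (R.m k) (R.ps s k) =
      PZ (R.m k) (fun j => j * (R.h k + 2 * R.M k + 2) + s k j) :=
    funext fun x => R.PZ_ps s k (hs k).1 x
  rw [h2]
  exact h1

/-- the bounds for the single products -/
theorem PR.exists_s' (R : PR) : ∃ s : ℕ → ℕ → ℕ, (∀ k j, s k j ≤ R.M k) ∧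
    (∀ k₀ k, k₀ ≤ k → ∫ x in (1 / ((k : ℝ) + 3))..(1 - 1 / ((k : ℝ) + 3)),
      RZ R.m (R.ps s) k₀ k x * |PZ (R.m k) (R.ps s k) x - 1| ≤ 1 / 4 ^ k) ∧
    (∀ k₀ k, k₀ ≤ k → ∫ x in (0 : ℝ)..1,
      RZ R.m (R.ps s) k₀ k x * |PZ (R.m k) (R.ps s k) x - 1| ≤ 2) := by
  obtain ⟨s, hs, hb⟩ := R.exists_s
  have habs : ∀ k, Continuous (fun x => |PZ (R.m k) (R.ps s k) x - 1|) := fun k =>
    ((continuous_PZ (R.m k) (R.ps s k)).sub continuous_const).abs
  refine ⟨s, hs, ?_, ?_⟩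
  · intro k₀ k hk
    have hk0 : (0 : ℝ) ≤ k := Nat.cast_nonneg k
    have hab : (1 / ((k : ℝ) + 3)) ≤ 1 - 1 / ((k : ℝ) + 3) := by
      have h1 : 1 / ((k : ℝ) + 3) ≤ 1 / 3 :=
        one_div_le_one_div_of_le (by norm_num) (by linarith)
      linarith
    have hle : ∀ x, RZ R.m (R.ps s) k₀ k x ≤ (k + 1) * QZ R.m (R.ps s) k x := by
      intro x
      unfold QZ
      rw [mul_div_cancel₀ _ (by positivity)]
      exact Finset.single_le_sum (f := fun k₁ => RZ R.m (R.ps s) k₁ k x)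
        (fun k₁ _ => RZ_nonneg _ _ _ _ _) (Finset.mem_range.2 (by omega))
    have hQc : Continuous (QZ R.m (R.ps s) k) := by
      unfold QZ
      exact (continuous_finsetSum _ fun k₁ _ => continuous_RZ R.m (R.ps s) k₁ k).div_const _
    have h2 : ∫ x in (1 / ((k : ℝ) + 3))..(1 - 1 / ((k : ℝ) + 3)),
        RZ R.m (R.ps s) k₀ k x * |PZ (R.m k) (R.ps s k) x - 1| ≤
        ∫ x in (1 / ((k : ℝ) + 3))..(1 - 1 / ((k : ℝ) + 3)),
          ((k : ℝ) + 1) * (QZ R.m (R.ps s) k x * |PZ (R.m k) (R.ps s k) x - 1|) := by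
      refine intervalIntegral.integral_mono_on hab
        (((continuous_RZ R.m (R.ps s) k₀ k).mul (habs k)).intervalIntegrable _ _)
        ((continuous_const.mul (hQc.mul (habs k))).intervalIntegrable _ _) fun x _ => ?_
      rw [← mul_assoc]
      exact mul_le_mul_of_nonneg_right (hle x) (abs_nonneg _)
    rw [intervalIntegral.integral_const_mul] at h2
    have h3 := mul_le_mul_of_nonneg_left (hb k) (by positivity : (0 : ℝ) ≤ (k : ℝ) + 1)
    refine h2.trans (h3.trans (le_of_eq ?_))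
    have h4 : ((k : ℝ) + 1) ≠ 0 := by positivity
    have h5 : (4 : ℝ) ^ k ≠ 0 := by positivity
    field_simp
  · intro k₀ k hk
    obtain ⟨hT, hI⟩ := R.RZ_trig s k₀ k hk fun i _ => hs i
    have hRc := continuous_RZ R.m (R.ps s) k₀ k
    have hPc := continuous_PZ (R.m k) (R.ps s k)
    have h2 : ∫ x in (0 : ℝ)..1, RZ R.m (R.ps s) k₀ k x * |PZ (R.m k) (R.ps s k) x - 1| ≤
        ∫ x in (0 : ℝ)..1, (RZ R.m (R.ps s) k₀ k x * PZ (R.m k) (R.ps s k) x +
          RZ R.m (R.ps s) k₀ k x) := by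
      refine intervalIntegral.integral_mono_on zero_le_one
        ((hRc.mul (habs k)).intervalIntegrable _ _)
        (((hRc.mul hPc).add hRc).intervalIntegrable _ _) fun x _ => ?_
      have h3 : |PZ (R.m k) (R.ps s k) x - 1| ≤ PZ (R.m k) (R.ps s k) x + 1 := by
        have h4 := PZ_nonneg (R.m k) (R.ps s k) x
        exact abs_le.2 ⟨by linarith, by linarith⟩
      calc RZ R.m (R.ps s) k₀ k x * |PZ (R.m k) (R.ps s k) x - 1|
          ≤ RZ R.m (R.ps s) k₀ k x * (PZ (R.m k) (R.ps s k) x + 1) :=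
            mul_le_mul_of_nonneg_left h3 (RZ_nonneg _ _ _ _ _)
        _ = _ := by ring
    have hm : 0 < R.m k := lt_of_lt_of_le (by norm_num) (R.two_le k)
    have h5 := integral_mul_PZ hm (p := R.ps s k)
      (fun i j hij _ => R.ps_step s k (hs k) i j hij) hT
    have i1 : IntervalIntegrable (fun x => RZ R.m (R.ps s) k₀ k x * PZ (R.m k) (R.ps s k) x)
        volume 0 1 := (hRc.mul hPc).intervalIntegrable _ _
    rw [intervalIntegral.integral_add i1 (hRc.intervalIntegrable _ _), h5, hI] at h2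
    linarith

end Vale.Agent.P130B
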