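import Vale.Agent.Lib.P130B.G.Par
import Vale.Agent.Lib.P130B.G.Seq
import Vale.Agent.Lib.P130B.G.Cir

/-! P130B glue: the rank one data. -/

namespace Vale.Agent.P130B

open MeasureTheory Filter Topology Vale.Agent.P110F Vale.Agent.P130H
open scoped ComplexConjugate

private theorem RO_cont (m : ℕ → ℕ) (p : ℕ → ℕ → ℕ) (k : ℕ) :
    Continuous (PZ (m k) (p k)) := by
  have h : PZ (m k) (p k) = RZ m p k (k + 1) := by
    funext x
    unfold RZ
    rw [Finset.prod_Ico_succ_top (le_refl k), Finset.Ico_self, Finset.prod_empty, one_mul]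
  rw [h]
  exact continuous_RZ m p k (k + 1)

theorem exists_RO (h : Flat01) : ∃ R : P130H.RO, R.h 0 = 1 ∧ R.Flat ∧
    ∃ C : ℕ, ∀ k, R.h k ≤ C * ∏ i ∈ Finset.range k, R.m i := by
  obtain ⟨P⟩ := exists_PR h
  obtain ⟨s, hs, hb1, hb2⟩ := P.exists_s'
  let R : P130H.RO :=
    { m := P.m
      h := P.h
      pos := P.ps s
      two_le := P.two_le
      h_pos := by
        rw [P.h0]
        exact one_pos
      pos_zero := P.ps_zero s
      step := fun k j _ => (P.ps_step s k (hs k) j (j + 1) (Nat.lt_succ_self j)).le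
      last := fun k => P.ps_last s k (hs k) (P.m k - 1) (by
        have := P.two_le k
        omega)
      bdd := ⟨(P.C : ℝ), fun k => by exact_mod_cast P.bdd k⟩ }
  refine ⟨R, P.h0, ?_, P.C, P.bdd⟩
  intro t ht ht'
  refine ⟨fun k => if 1 / ((k : ℝ) + 3) ≤ t then (1 / 2) ^ k else 2, ?_, ?_, ?_⟩
  · obtain ⟨K, hK⟩ := exists_nat_gt (1 / t)
    rw [← summable_nat_add_iff K]
    have h1 : ∀ k : ℕ, (if 1 / (((k + K : ℕ) : ℝ) + 3) ≤ t then (1 / 2 : ℝ) ^ (k + K) else 2) =
        (1 / 2) ^ k * (1 / 2) ^ K := by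
      intro k
      rw [if_pos, pow_add]
      rw [div_le_iff₀ (by positivity)]
      rw [div_lt_iff₀ ht] at hK
      push_cast
      have : 0 ≤ t * (k : ℝ) := by positivity
      nlinarith
    simp only [h1]
    exact summable_geometric_two.mul_right _
  · intro k
    dsimp only
    split_ifs
    · positivity
    · norm_num
  · intro k₀ k hk
    have e1 : ∫ x in Th t, R.rho k₀ k x * |‖R.p k x‖ ^ 2 - 1| ∂haar =
        ∫ x in t..(1 - t), RZ P.m (P.ps s) k₀ k x * |PZ (P.m k) (P.ps s k) x - 1| := by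
      rw [integral_Th ht ht' fun x => R.rho k₀ k x * |‖R.p k x‖ ^ 2 - 1|]
      refine intervalIntegral.integral_congr fun x _ => ?_
      simp only [norm_p_coe, rho_coe]
      rfl
    have hc : Continuous fun x => RZ P.m (P.ps s) k₀ k x * |PZ (P.m k) (P.ps s k) x - 1| :=
      (continuous_RZ _ _ _ _).mul ((RO_cont P.m (P.ps s) k).sub continuous_const).abs
    have hn : ∀ x, 0 ≤ RZ P.m (P.ps s) k₀ k x * |PZ (P.m k) (P.ps s k) x - 1| := fun x =>
      mul_nonneg (RZ_nonneg _ _ _ _ _) (abs_nonneg _)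
    rw [e1]
    dsimp only
    split_ifs with hkt
    · have h1 := intervalIntegral.integral_mono_interval (μ := volume)
        (f := fun x => RZ P.m (P.ps s) k₀ k x * |PZ (P.m k) (P.ps s k) x - 1|)
        (a := t) (b := 1 - t) (c := 1 / ((k : ℝ) + 3)) (d := 1 - 1 / ((k : ℝ) + 3)) hkt
        (by linarith) (by linarith) (Filter.Eventually.of_forall hn) (hc.intervalIntegrable _ _)
      refine h1.trans ((hb1 k₀ k hk).trans (le_of_eq ?_))
      rw [← pow_mul, mul_comm, pow_mul, ← one_div_pow]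
      norm_num
    · have h1 := intervalIntegral.integral_mono_interval (μ := volume)
        (f := fun x => RZ P.m (P.ps s) k₀ k x * |PZ (P.m k) (P.ps s k) x - 1|)
        (a := t) (b := 1 - t) (c := 0) (d := 1) ht.le
        (by linarith) (by linarith) (Filter.Eventually.of_forall hn) (hc.intervalIntegrable _ _)
      refine h1.trans ((hb2 k₀ k hk).trans ?_)
      norm_num

end Vale.Agent.P130B
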