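import Vale.Agent.Lib.P130B.G.TrigB

/-! P130B glue: the products, first facts (helper96). -/

namespace Vale.Agent.P130B

open MeasureTheory Filter Topology Vale.Agent.P110F
open scoped ComplexConjugate

theorem RZ_nonneg (m : ℕ → ℕ) (p : ℕ → ℕ → ℕ) (k₀ k : ℕ) (x : ℝ) : 0 ≤ RZ m p k₀ k x :=
  Finset.prod_nonneg fun i _ => PZ_nonneg (m i) (p i) x

theorem continuous_RZ (m : ℕ → ℕ) (p : ℕ → ℕ → ℕ) (k₀ k : ℕ) : Continuous (RZ m p k₀ k) := by
  unfold RZ
  exact continuous_finsetProd _ fun i _ => continuous_PZ (m i) (p i)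

/-- facts on the positions -/
theorem PR.ps_zero (R : PR) (s : ℕ → ℕ → ℕ) (k : ℕ) : R.ps s k 0 = 0 := by
  simp [PR.ps]

theorem PR.ps_step (R : PR) (s : ℕ → ℕ → ℕ) (k : ℕ) (hs : ∀ j, s k j ≤ R.M k) (i j : ℕ)
    (hij : i < j) : R.ps s k i + R.h k < R.ps s k j := by
  have h1 : (i + 1) * (R.h k + 2 * R.M k + 2) ≤ j * (R.h k + 2 * R.M k + 2) :=
    Nat.mul_le_mul_right _ hij
  rw [add_mul, one_mul] at h1
  have h2 := hs i
  have h3 := hs j
  have h4 := hs 0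
  unfold PR.ps
  omega

theorem PR.ps_last (R : PR) (s : ℕ → ℕ → ℕ) (k : ℕ) (hs : ∀ j, s k j ≤ R.M k) (j : ℕ)
    (hj : j < R.m k) : R.ps s k j + R.h k < R.h (k + 1) := by
  have h1 : (j + 1) * (R.h k + 2 * R.M k + 2) ≤ R.m k * (R.h k + 2 * R.M k + 2) :=
    Nat.mul_le_mul_right _ hj
  rw [add_mul, one_mul] at h1
  have h2 := hs j
  have h4 := hs 0
  rw [R.hs k]
  unfold PR.ps
  omega

/-- the normalization does not change the modulus -/
theorem PR.PZ_ps (R : PR) (s : ℕ → ℕ → ℕ) (k : ℕ) (hs : ∀ j, s k j ≤ R.M k) (x : ℝ) :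
    PZ (R.m k) (R.ps s k) x =
      PZ (R.m k) (fun j => j * (R.h k + 2 * R.M k + 2) + s k j) x := by
  unfold PZ
  have h1 : ∀ j, e1 ((R.ps s k j : ℝ) * x) = e1 (-((s k 0 : ℝ) * x)) *
      e1 (((j * (R.h k + 2 * R.M k + 2) + s k j : ℕ) : ℝ) * x) := by
    intro j
    rw [← e1_add]
    congr 1
    have h2 : s k 0 ≤ j * (R.h k + 2 * R.M k + 2) + s k j := by
      rcases Nat.eq_zero_or_pos j with h | h
      · subst h
        omega
      · have h3 : 1 * (R.h k + 2 * R.M k + 2) ≤ j * (R.h k + 2 * R.M k + 2) :=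
          Nat.mul_le_mul_right _ h
        have h4 := hs 0
        omega
    unfold PR.ps
    rw [Nat.cast_sub h2]
    ring
  simp_rw [h1]
  rw [← Finset.mul_sum, norm_mul, norm_e1, one_mul]

end Vale.Agent.P130B
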