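import Vale.Agent.Lib.P130B.G.Defs
import Vale.Agent.Lib.P130B.F.S1

/-! P130B glue: trigonometric polynomials.  (`IsTrig.continuous` is in `F/S1`.) -/

namespace Vale.Agent.P130B

open MeasureTheory Filter Topology Vale.Agent.P110F
open scoped ComplexConjugate

theorem IsTrig.mono {d d' : ℕ} {Q : ℝ → ℝ} (h : IsTrig d Q) (hd : d ≤ d') : IsTrig d' Q := by
  obtain ⟨q, hq⟩ := h
  refine ⟨fun k => if k ∈ Finset.Icc (-(d : ℤ)) d then q k else 0, fun x => ?_⟩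
  rw [hq x]
  have hsub : Finset.Icc (-(d : ℤ)) d ⊆ Finset.Icc (-(d' : ℤ)) d' := by
    intro k hk
    rw [Finset.mem_Icc] at hk ⊢
    omega
  rw [← Finset.sum_subset hsub (f := fun k : ℤ =>
    (if k ∈ Finset.Icc (-(d : ℤ)) d then q k else 0) * e1 (k * x))]
  · refine Finset.sum_congr rfl fun k hk => ?_
    rw [if_pos hk]
  · intro k _ hk
    rw [if_neg hk, zero_mul]

theorem IsTrig.mul {d d' : ℕ} {Q Q' : ℝ → ℝ} (h : IsTrig d Q) (h' : IsTrig d' Q') :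
    IsTrig (d + d') (fun x => Q x * Q' x) := by
  obtain ⟨q, hq⟩ := h
  obtain ⟨q', hq'⟩ := h'
  refine ⟨fun k => ∑ p ∈ (Finset.Icc (-(d : ℤ)) d ×ˢ Finset.Icc (-(d' : ℤ)) d').filter
    (fun p => p.1 + p.2 = k), q p.1 * q' p.2, fun x => ?_⟩
  have h1 : ((Q x * Q' x : ℝ) : ℂ) =
      ∑ p ∈ Finset.Icc (-(d : ℤ)) d ×ˢ Finset.Icc (-(d' : ℤ)) d',
        q p.1 * q' p.2 * e1 (((p.1 + p.2 : ℤ) : ℝ) * x) := by
    rw [Complex.ofReal_mul, hq x, hq' x, Finset.sum_mul_sum, Finset.sum_product]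
    refine Finset.sum_congr rfl fun a _ => Finset.sum_congr rfl fun b _ => ?_
    have e2 : e1 (((a + b : ℤ) : ℝ) * x) = e1 (a * x) * e1 (b * x) := by
      rw [← e1_add]
      congr 1
      push_cast
      ring
    rw [e2]
    ring
  rw [h1]
  have hmaps : ∀ p ∈ Finset.Icc (-(d : ℤ)) d ×ˢ Finset.Icc (-(d' : ℤ)) d',
      p.1 + p.2 ∈ Finset.Icc (-((d + d' : ℕ) : ℤ)) ((d + d' : ℕ) : ℤ) := by
    intro p hp
    rw [Finset.mem_product, Finset.mem_Icc, Finset.mem_Icc] at hp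
    rw [Finset.mem_Icc]
    push_cast
    omega
  rw [← Finset.sum_fiberwise_of_maps_to hmaps]
  refine Finset.sum_congr rfl fun k _ => ?_
  rw [Finset.sum_mul]
  refine Finset.sum_congr rfl fun p hp => ?_
  rw [(Finset.mem_filter.1 hp).2]

theorem IsTrig.add {d : ℕ} {Q Q' : ℝ → ℝ} (h : IsTrig d Q) (h' : IsTrig d Q') :
    IsTrig d (fun x => Q x + Q' x) := by
  obtain ⟨q, hq⟩ := h
  obtain ⟨q', hq'⟩ := h'
  refine ⟨fun k => q k + q' k, fun x => ?_⟩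
  rw [Complex.ofReal_add, hq x, hq' x, ← Finset.sum_add_distrib]
  exact Finset.sum_congr rfl fun k _ => by ring

theorem IsTrig.smul {d : ℕ} {Q : ℝ → ℝ} (h : IsTrig d Q) (c : ℝ) :
    IsTrig d (fun x => c * Q x) := by
  obtain ⟨q, hq⟩ := h
  refine ⟨fun k => c * q k, fun x => ?_⟩
  rw [Complex.ofReal_mul, hq x, Finset.mul_sum]
  exact Finset.sum_congr rfl fun k _ => by ring

theorem isTrig_const (d : ℕ) (c : ℝ) : IsTrig d (fun _ => c) := by
  refine ⟨fun k => if k = 0 then (c : ℂ) else 0, fun x => ?_⟩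
  rw [Finset.sum_eq_single (0 : ℤ)]
  · simp [e1_zero]
  · intro k _ hk
    simp only [if_neg hk, zero_mul]
  · intro h
    exact absurd (Finset.mem_Icc.2 ⟨by omega, by omega⟩) h

end Vale.Agent.P130B
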