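import Vale.Agent.Lib.P130B.G.TrigA

/-! P130B glue: trigonometric polynomials, the sums `PZ`. -/

namespace Vale.Agent.P130B

open MeasureTheory Filter Topology Vale.Agent.P110F
open scoped ComplexConjugate

theorem continuous_PZ (m : ℕ) (p : ℕ → ℕ) : Continuous (PZ m p) := by
  unfold PZ
  refine Continuous.div_const (Continuous.pow (Continuous.norm ?_) 2) _
  exact continuous_finsetSum _ fun j _ =>
    continuous_e1.comp (continuous_const.mul continuous_id)

theorem PZ_nonneg (m : ℕ) (p : ℕ → ℕ) (x : ℝ) : 0 ≤ PZ m p x := by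
  unfold PZ
  positivity

private theorem TrigB_PZ_eq (m : ℕ) (p : ℕ → ℕ) (x : ℝ) : ((PZ m p x : ℝ) : ℂ) =
    ∑ i ∈ Finset.range m, ∑ j ∈ Finset.range m,
      e1 ((((p i : ℤ) - (p j : ℤ) : ℤ) : ℝ) * x) * (m : ℂ)⁻¹ := by
  have h1 : ((PZ m p x : ℝ) : ℂ) =
      (((‖∑ j ∈ Finset.range m, e1 ((p j : ℝ) * x)‖ : ℝ) : ℂ) ^ 2) * (m : ℂ)⁻¹ := by
    unfold PZ
    rw [Complex.ofReal_div, Complex.ofReal_pow, Complex.ofReal_natCast, div_eq_mul_inv]
  rw [h1, ← Complex.mul_conj', map_sum, Finset.sum_mul_sum, Finset.sum_mul]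
  refine Finset.sum_congr rfl fun i _ => ?_
  rw [Finset.sum_mul]
  refine Finset.sum_congr rfl fun j _ => ?_
  rw [← e1_neg, ← e1_add]
  have h2 : (p i : ℝ) * x + -((p j : ℝ) * x) = (((p i : ℤ) - (p j : ℤ) : ℤ) : ℝ) * x := by
    push_cast
    ring
  rw [h2]

theorem isTrig_PZ (m : ℕ) (p : ℕ → ℕ) (D : ℕ) (hp : ∀ j < m, p j ≤ D) : IsTrig D (PZ m p) := by
  refine ⟨fun k => ∑ i ∈ Finset.range m, ∑ j ∈ Finset.range m,
    if (p i : ℤ) - (p j : ℤ) = k then (m : ℂ)⁻¹ else 0, fun x => ?_⟩
  rw [TrigB_PZ_eq]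
  simp_rw [Finset.sum_mul]
  symm
  refine Finset.sum_comm.trans ?_
  refine Finset.sum_congr rfl fun i hi => ?_
  refine Finset.sum_comm.trans ?_
  refine Finset.sum_congr rfl fun j hj => ?_
  have hi' := hp i (Finset.mem_range.1 hi)
  have hj' := hp j (Finset.mem_range.1 hj)
  have hmem : (p i : ℤ) - (p j : ℤ) ∈ Finset.Icc (-(D : ℤ)) D := by
    rw [Finset.mem_Icc]
    constructor <;> omega
  rw [Finset.sum_eq_single_of_mem _ hmem]
  · rw [if_pos rfl, mul_comm]
  · intro k _ hk
    rw [if_neg (fun h => hk h.symm), zero_mul]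

private theorem TrigB_integral_zero {d : ℕ} {Q : ℝ → ℝ} (hQ : IsTrig d Q) (n : ℤ)
    (hn : (d : ℤ) < |n|) : ∫ x in (0 : ℝ)..1, (Q x : ℂ) * e1 ((n : ℝ) * x) = 0 := by
  obtain ⟨q, hq⟩ := hQ
  have h1 : ∀ x, (Q x : ℂ) * e1 ((n : ℝ) * x) =
      ∑ k ∈ Finset.Icc (-(d : ℤ)) d, q k * e1 (((k + n : ℤ) : ℝ) * x) := by
    intro x
    rw [hq x, Finset.sum_mul]
    refine Finset.sum_congr rfl fun k _ => ?_
    rw [mul_assoc, ← e1_add]
    congr 2
    push_cast
    ring
  simp_rw [h1]
  rw [intervalIntegral.integral_finsetSum]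
  · refine Finset.sum_eq_zero fun k hk => ?_
    rw [intervalIntegral.integral_const_mul, integral_e1_int, if_neg, mul_zero]
    rw [Finset.mem_Icc] at hk
    intro h0
    rw [lt_abs] at hn
    omega
  · intro k _
    exact (continuous_const.mul
      (continuous_e1.comp (continuous_const.mul continuous_id))).intervalIntegrable _ _

/-- if the gaps of the exponents are larger than the degree of the weight, the sum is invisible -/
theorem integral_mul_PZ {d m : ℕ} (hm : 0 < m) {p : ℕ → ℕ}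
    (hp : ∀ i j, i < j → j < m → p i + d < p j) {Q : ℝ → ℝ} (hQ : IsTrig d Q) :
    ∫ x in (0 : ℝ)..1, Q x * PZ m p x = ∫ x in (0 : ℝ)..1, Q x := by
  apply Complex.ofReal_injective
  rw [← intervalIntegral.integral_ofReal, ← intervalIntegral.integral_ofReal]
  have hQc : Continuous fun x => (Q x : ℂ) := Complex.continuous_ofReal.comp hQ.continuous
  have hec : ∀ n : ℤ, Continuous fun x : ℝ => e1 ((n : ℝ) * x) := fun n =>
    continuous_e1.comp (continuous_const.mul continuous_id)
  have h1 : ∀ x, ((Q x * PZ m p x : ℝ) : ℂ) = ∑ i ∈ Finset.range m, ∑ j ∈ Finset.range m,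
      (Q x : ℂ) * e1 ((((p i : ℤ) - (p j : ℤ) : ℤ) : ℝ) * x) * (m : ℂ)⁻¹ := by
    intro x
    rw [Complex.ofReal_mul, TrigB_PZ_eq, Finset.mul_sum]
    refine Finset.sum_congr rfl fun i _ => ?_
    rw [Finset.mul_sum]
    refine Finset.sum_congr rfl fun j _ => ?_
    rw [mul_assoc]
  simp_rw [h1]
  rw [intervalIntegral.integral_finsetSum]
  · have h2 : ∀ i ∈ Finset.range m, ∫ x in (0 : ℝ)..1, ∑ j ∈ Finset.range m,
        (Q x : ℂ) * e1 ((((p i : ℤ) - (p j : ℤ) : ℤ) : ℝ) * x) * (m : ℂ)⁻¹ =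
        (∫ x in (0 : ℝ)..1, (Q x : ℂ)) * (m : ℂ)⁻¹ := by
      intro i hi
      rw [intervalIntegral.integral_finsetSum]
      · rw [Finset.sum_eq_single_of_mem i hi]
        · rw [intervalIntegral.integral_mul_const, sub_self]
          congr 1
          refine intervalIntegral.integral_congr fun x _ => ?_
          change (Q x : ℂ) * e1 (((0 : ℤ) : ℝ) * x) = (Q x : ℂ)
          rw [Int.cast_zero, zero_mul, e1_zero, mul_one]
        · intro j hj hji
          rw [intervalIntegral.integral_mul_const, TrigB_integral_zero hQ, zero_mul]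
          rw [Finset.mem_range] at hi hj
          rw [lt_abs]
          rcases lt_or_gt_of_ne hji with h3 | h3
          · left
            have := hp j i h3 hi
            omega
          · right
            have := hp i j h3 hj
            omega
      · intro j _
        exact ((hQc.mul (hec _)).mul continuous_const).intervalIntegrable _ _
    rw [Finset.sum_congr rfl h2, Finset.sum_const, Finset.card_range, nsmul_eq_mul]
    have hm' : (m : ℂ) ≠ 0 := by exact_mod_cast hm.ne'
    field_simp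
  · intro i _
    refine Continuous.intervalIntegrable ?_ _ _
    exact continuous_finsetSum _ fun j _ => (hQc.mul (hec _)).mul continuous_const

end Vale.Agent.P130B
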